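import Vale.Agent.P267.H175.RGood
import Vale.Agent.P267.H175.Nerve1
import Vale.Agent.P267.H368.Cover
import Vale.Agent.P267.H399.Calc3
import Vale.Agent.P267.Statement

/-!
The first two Betti numbers of a compact surface exist, i.e. the spaces of closed forms modulo
exact forms are finite-dimensional.
-/

open scoped Manifold ContDiff Topology
open Set Filter TopologicalSpace
open Vale.Agent.P272.K

namespace Vale.Agent.P267.H175

section general

variable {E : Type*} [NormedAddCommGroup E] [NormedSpace ℝ E]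
variable {X : Type*} [TopologicalSpace X] [ChartedSpace E X]

/-- The derivative of the inverse of a chart, in the preferred coordinates. -/
theorem mfderiv_symm_eq [IsManifold 𝓘(ℝ, E) ∞ X] {e : OpenPartialHomeomorph X E}
    (he : e ∈ atlas E X) {z : E} (hz : z ∈ e.target) :
    mfderiv 𝓘(ℝ, E) 𝓘(ℝ, E) e.symm z =
      fderiv ℝ (fun y => chartAt E (e.symm z) (e.symm y)) z := by
  have h1 : MDifferentiableAt 𝓘(ℝ, E) 𝓘(ℝ, E) e.symm z :=
    ((contMDiffOn_symm_of_mem_maximalAtlas (n := ∞)
      (IsManifold.subset_maximalAtlas he)).contMDiffAt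
      (e.open_target.mem_nhds hz)).mdifferentiableAt (by simp)
  refine h1.mfderiv.trans ?_
  have h2 : writtenInExtChartAt 𝓘(ℝ, E) 𝓘(ℝ, E) z e.symm =
      fun y => chartAt E (e.symm z) (e.symm y) := by
    funext y
    simp [writtenInExtChartAt, extChartAt, mfld_simps, chartAt_self_eq]
  rw [h2]
  simp only [extChartAt, mfld_simps, fderivWithin_univ]
  rfl

/-- Every compact manifold has a finite good cover with a subordinate smooth partition of unity. -/
theorem exists_goodCov [FiniteDimensional ℝ E] [IsManifold 𝓘(ℝ, E) ∞ X] [CompactSpace X]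
    [T2Space X] : ∃ (n : ℕ) (U : Fin n → Opens X) (f : SmoothPartitionOfUnity (Fin n) 𝓘(ℝ, E) X univ),
      (∀ i, tsupport (f i) ⊆ U i) ∧ GoodCov E U := by
  obtain ⟨G, -⟩ := H368.exists_goodCover_manifold (𝕜 := ℝ) (E := E) (X := X) (n := ∞)
    (by norm_cast) (toEuclidean (E := E)) (κ := Unit) (fun _ => univ)
    (fun _ => isOpen_univ) (fun _ => ⟨(), trivial⟩)
  let U : Fin G.n → Opens X := fun i => ⟨G.U i, G.isOpen_U i⟩
  have hU : ∀ (s : Finset (Fin G.n)) (i : Fin G.n), i ∈ s →
      ∀ V : Opens X, (V : Set X) = ⋂ j ∈ s, G.U j → ChartConvex E V := by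
    intro s i hi V hV
    refine ⟨G.e i, G.e_mem i, ?_, ?_⟩
    · rw [hV]
      intro x hx
      simp only [mem_iInter] at hx
      exact G.U_sub_source i (hx i hi)
    · rcases (V : Set X).eq_empty_or_nonempty with h | h
      · rw [h, image_empty]
        exact convex_empty
      · rw [hV] at h ⊢
        exact (G.inter_convex hi h).2.1
  have hcov : (univ : Set X) ⊆ ⋃ i, (U i : Set X) := by
    intro x _
    obtain ⟨i, hi⟩ := G.exists_mem_U x
    exact mem_iUnion.2 ⟨i, hi⟩
  obtain ⟨f, hf⟩ := SmoothPartitionOfUnity.exists_isSubordinate 𝓘(ℝ, E) isClosed_univ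
    (fun i => (U i : Set X)) (fun i => (U i).isOpen) hcov
  refine ⟨G.n, U, f, hf, ⟨fun i => ?_, fun i j => ?_, fun i j k => ?_⟩⟩
  · exact hU {i} i (by simp) _ (by simp; rfl)
  · exact hU {i, j} i (by simp) _ (by simp; rfl)
  · exact hU {i, j, k} i (by simp) _ (by simp [inter_assoc]; rfl)

end general

section surface

variable {X : Type*} [TopologicalSpace X] [ChartedSpace (Cm 2) X] [IsManifold 𝓘(ℝ, Cm 2) ∞ X]

/-- A form as a function with values in the alternating forms of the model space. -/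
def frm {k : ℕ} (a : RForm k X) : X → Cm 2 [⋀^Fin k]→L[ℝ] ℝ := a

theorem pull_eq {k : ℕ} (a : RForm k X) {e : OpenPartialHomeomorph X (Cm 2)}
    (he : e ∈ atlas (Cm 2) X) {z : Cm 2} (hz : z ∈ e.target) :
    pullForm e.symm a z = loc e (frm a) z := by
  rw [pullForm, mfderiv_symm_eq he hz]
  rfl

theorem smoothForm_iff {k : ℕ} (a : RForm k X) : SmoothForm a ↔ ∀ x, SmAt (frm a) x := by
  constructor
  · intro h x
    have h1 := (h _ (chart_mem_atlas (Cm 2) x)).contDiffAt
      ((chartAt (Cm 2) x).open_target.mem_nhds (mem_chart_target (Cm 2) x))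
    refine h1.congr_of_eventuallyEq ?_
    filter_upwards [(chartAt (Cm 2) x).open_target.mem_nhds (mem_chart_target (Cm 2) x)] with z hz
    exact (pull_eq a (chart_mem_atlas (Cm 2) x) hz).symm
  · intro h e he z hz
    have h1 := (smAt_iff he (e.map_target hz)).1 (h (e.symm z))
    rw [e.right_inv hz] at h1
    refine (h1.congr_of_eventuallyEq ?_).contDiffWithinAt
    filter_upwards [e.open_target.mem_nhds hz] with y hy
    exact pull_eq a he hy

theorem isExtDeriv_iff {k : ℕ} {b : RForm k X} (hb : SmoothForm b) (a : RForm (k + 1) X) :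
    IsExtDeriv b a ↔ dF (frm b) = frm a := by
  have key : ∀ e ∈ atlas (Cm 2) X, ∀ z ∈ e.target,
      extDeriv (pullForm e.symm b) z = loc e (dF (frm b)) z := by
    intro e he z hz
    rw [loc_dF he hz ((smoothForm_iff b).1 hb _)]
    refine Filter.EventuallyEq.extDeriv_eq ?_
    filter_upwards [e.open_target.mem_nhds hz] with y hy
    exact pull_eq b he hy
  constructor
  · intro h
    funext x
    refine loc_inj (chart_mem_atlas (Cm 2) x) (mem_chart_source (Cm 2) x) ?_
    rw [← key _ (chart_mem_atlas (Cm 2) x) _ (mem_chart_target (Cm 2) x),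
      h _ (chart_mem_atlas (Cm 2) x) _ (mem_chart_target (Cm 2) x),
      pull_eq a (chart_mem_atlas (Cm 2) x) (mem_chart_target (Cm 2) x)]
  · intro h e he z hz
    rw [key e he z hz, h, pull_eq a he hz]

theorem closedForm_iff {k : ℕ} {b : RForm k X} (hb : SmoothForm b) :
    ClosedForm b ↔ dF (frm b) = 0 := isExtDeriv_iff hb 0

variable {ι : Type*} {U : ι → Opens X}
  (f : SmoothPartitionOfUnity ι 𝓘(ℝ, Cm 2) X univ) (hf : ∀ i, tsupport (f i) ⊆ U i)

omit [IsManifold 𝓘(ℝ, Cm 2) ∞ X] in
theorem mem_FV_top {k : ℕ} {a : X → Cm 2 [⋀^Fin k]→L[ℝ] ℝ} :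
    a ∈ FV (Cm 2) k (⊤ : Opens X) ↔ ∀ x, SmAt a x :=
  ⟨fun h x => h.1 x trivial, fun h => ⟨fun x _ => h x, fun _ hx => absurd trivial hx⟩⟩

/-- A smooth form as an element of the complex. -/
noncomputable def toA {k : ℕ} (a : RForm k X) (ha : SmoothForm a) : (formPre f hf).A k ⊤ :=
  ⟨frm a, mem_FV_top.2 ((smoothForm_iff a).1 ha)⟩

theorem d_toA {k : ℕ} (b : RForm k X) (hb : SmoothForm b) (a : RForm (k + 1) X)
    (ha : SmoothForm a) :
    (formPre f hf).d (toA f hf b hb) = toA f hf a ha ↔ IsExtDeriv b a := by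
  rw [isExtDeriv_iff hb]
  constructor
  · intro h
    funext x
    have h1 : (dFV (toA f hf b hb)).1 x = frm a x :=
      congrArg (fun c : FV (Cm 2) (k + 1) (⊤ : Opens X) => c.1 x) h
    rw [← h1]
    exact (dFV_apply (toA f hf b hb) trivial).symm
  · intro h
    refine FV_ext fun x hx => ?_
    show (dFV (toA f hf b hb)).1 x = frm a x
    rw [dFV_apply (toA f hf b hb) hx, ← h]
    rfl

theorem d_toA_zero {k : ℕ} (b : RForm k X) (hb : SmoothForm b) :
    (formPre f hf).d (toA f hf b hb) = 0 ↔ ClosedForm b := by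
  rw [closedForm_iff hb]
  constructor
  · intro h
    funext x
    have h1 : (dFV (toA f hf b hb)).1 x = 0 :=
      congrArg (fun c : FV (Cm 2) (k + 1) (⊤ : Opens X) => c.1 x) h
    rw [Pi.zero_apply, ← h1]
    exact (dFV_apply (toA f hf b hb) trivial).symm
  · intro h
    refine FV_ext fun x hx => ?_
    show (dFV (toA f hf b hb)).1 x = 0
    rw [dFV_apply (toA f hf b hb) hx]
    exact congrFun h x

/-- The class of a closed smooth form. -/
noncomputable def clsF {k : ℕ} (a : RForm (k + 1) X) (ha : SmoothForm a) (hc : ClosedForm a) :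
    (formPre f hf).Coh k :=
  (formPre f hf).cls ⟨toA f hf a ha, (d_toA_zero f hf a ha).2 hc⟩

theorem clsF_eq_zero {k : ℕ} (a : RForm (k + 1) X) (ha : SmoothForm a) (hc : ClosedForm a) :
    clsF f hf a ha hc = 0 ↔ ExactForm a := by
  rw [clsF, FormPre.cls_eq_zero]
  constructor
  · rintro ⟨η, h⟩
    have hη : SmoothForm (k := k) (X := X) η.1 :=
      (smoothForm_iff _).2 (mem_FV_top.1 η.2)
    exact ⟨η.1, hη, (d_toA f hf η.1 hη a ha).1 h⟩
  · rintro ⟨b, hb, h⟩
    exact ⟨toA f hf b hb, (d_toA f hf b hb a ha).2 h⟩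

theorem exists_clsF {k : ℕ} (x : (formPre f hf).Coh k) :
    ∃ (a : RForm (k + 1) X) (ha : SmoothForm a) (hc : ClosedForm a), clsF f hf a ha hc = x := by
  obtain ⟨y, rfl⟩ := Submodule.Quotient.mk_surjective _ x
  have ha : SmoothForm (k := k + 1) (X := X) y.1.1 :=
    (smoothForm_iff _).2 (mem_FV_top.1 y.1.2)
  exact ⟨y.1.1, ha, (d_toA_zero f hf y.1.1 ha).1 y.2, rfl⟩

omit [IsManifold 𝓘(ℝ, Cm 2) ∞ X] in
theorem frm_comb {k n : ℕ} (c : RForm k X) (a : Fin n → RForm k X) (t : Fin n → ℝ) :
    frm (c - ∑ i, t i • a i) = frm c - ∑ i, t i • frm (a i) := rfl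

theorem smoothForm_comb {k n : ℕ} {c : RForm k X} (hc : SmoothForm c) {a : Fin n → RForm k X}
    (ha : ∀ i, SmoothForm (a i)) (t : Fin n → ℝ) : SmoothForm (c - ∑ i, t i • a i) := by
  rw [smoothForm_iff, ← mem_FV_top, frm_comb]
  refine Submodule.sub_mem _ (mem_FV_top.2 ((smoothForm_iff c).1 hc))
    (Submodule.sum_mem _ fun i _ => Submodule.smul_mem _ _ ?_)
  exact mem_FV_top.2 ((smoothForm_iff (a i)).1 (ha i))

/-- The underlying form of an element of the complex. -/
noncomputable def valL {k : ℕ} :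
    (formPre f hf).A k ⊤ →ₗ[ℝ] (X → Cm 2 [⋀^Fin k]→L[ℝ] ℝ) :=
  (FV (Cm 2) k (⊤ : Opens X)).subtype

theorem valL_injective {k : ℕ} : Function.Injective (valL f hf (k := k)) :=
  Subtype.val_injective

theorem valL_toA {k : ℕ} (a : RForm k X) (ha : SmoothForm a) :
    valL f hf (toA f hf a ha) = frm a := rfl

theorem toA_comb {k n : ℕ} {c : RForm k X} (hc : SmoothForm c) {a : Fin n → RForm k X}
    (ha : ∀ i, SmoothForm (a i)) (t : Fin n → ℝ) :
    toA f hf (c - ∑ i, t i • a i) (smoothForm_comb hc ha t) =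
      toA f hf c hc - ∑ i, t i • toA f hf (a i) (ha i) := by
  apply valL_injective
  simp only [map_sub, map_sum, map_smul, valL_toA, frm_comb]

include f hf in
theorem closedForm_comb {k n : ℕ} {c : RForm k X} (hc : SmoothForm c) (hc' : ClosedForm c)
    {a : Fin n → RForm k X} (ha : ∀ i, SmoothForm (a i)) (ha' : ∀ i, ClosedForm (a i))
    (t : Fin n → ℝ) : ClosedForm (c - ∑ i, t i • a i) := by
  rw [← d_toA_zero f hf _ (smoothForm_comb hc ha t), toA_comb f hf hc ha, map_sub, map_sum,
    (d_toA_zero f hf c hc).2 hc']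
  simp only [map_smul, fun i => (d_toA_zero f hf (a i) (ha i)).2 (ha' i)]
  simp

theorem clsF_comb {k n : ℕ} {c : RForm (k + 1) X} (hc : SmoothForm c) (hc' : ClosedForm c)
    {a : Fin n → RForm (k + 1) X} (ha : ∀ i, SmoothForm (a i)) (ha' : ∀ i, ClosedForm (a i))
    (t : Fin n → ℝ) :
    clsF f hf (c - ∑ i, t i • a i) (smoothForm_comb hc ha t)
      (closedForm_comb f hf hc hc' ha ha' t) =
      clsF f hf c hc hc' - ∑ i, t i • clsF f hf (a i) (ha i) (ha' i) := by
  have h1 : (⟨toA f hf (c - ∑ i, t i • a i) (smoothForm_comb hc ha t),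
      (d_toA_zero f hf _ (smoothForm_comb hc ha t)).2 (closedForm_comb f hf hc hc' ha ha' t)⟩ :
      LinearMap.ker ((formPre f hf).d (k := k + 1) (V := ⊤))) =
      ⟨toA f hf c hc, (d_toA_zero f hf c hc).2 hc'⟩ -
      ∑ i, t i • ⟨toA f hf (a i) (ha i), (d_toA_zero f hf (a i) (ha i)).2 (ha' i)⟩ := by
    apply Subtype.ext
    simp only [toA_comb f hf hc ha, AddSubgroupClass.coe_sub, Submodule.coe_sum,
      Submodule.coe_smul]
  rw [clsF, h1, FormPre.cls, Submodule.Quotient.mk_sub, ← Submodule.mkQ_apply,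
    ← Submodule.mkQ_apply, map_sum]
  simp only [map_smul]
  rfl

/-- **The Betti numbers of the statement are the dimensions of the cohomology of the complex.** -/
theorem bettiSucc_iff (k n : ℕ) :
    BettiSucc X k n ↔ Nonempty (Module.Basis (Fin n) ℝ ((formPre f hf).Coh k)) := by
  constructor
  · rintro ⟨a, ha, h⟩
    have key : ∀ x : (formPre f hf).Coh k,
        ∃! t : Fin n → ℝ, x = ∑ i, t i • clsF f hf (a i) (ha i).1 (ha i).2 := by
      intro x
      obtain ⟨c, hc, hc', rfl⟩ := exists_clsF f hf x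
      obtain ⟨t, h1, h2⟩ := h c hc hc'
      refine ⟨t, ?_, fun s hs => h2 s ?_⟩
      · show clsF f hf c hc hc' = _
        rw [← sub_eq_zero, ← clsF_comb f hf hc hc' (fun i => (ha i).1) (fun i => (ha i).2) t,
          clsF_eq_zero]
        exact h1
      · show ExactForm _
        rw [← clsF_eq_zero f hf _ (smoothForm_comb hc (fun i => (ha i).1) s)
          (closedForm_comb f hf hc hc' (fun i => (ha i).1) (fun i => (ha i).2) s),
          clsF_comb f hf hc hc' (fun i => (ha i).1) (fun i => (ha i).2)]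
        exact sub_eq_zero.2 hs
    refine ⟨Module.Basis.mk (v := fun i => clsF f hf (a i) (ha i).1 (ha i).2) ?_ ?_⟩
    · rw [Fintype.linearIndependent_iff]
      intro t ht i
      obtain ⟨s, -, hs⟩ := key 0
      have e1 := hs t ht.symm
      have e2 := hs 0 (by simp)
      rw [e1, ← e2]
      rfl
    · intro x _
      obtain ⟨t, ht, -⟩ := key x
      rw [ht]
      exact Submodule.sum_mem _ fun i _ => Submodule.smul_mem _ _
        (Submodule.subset_span ⟨i, rfl⟩)
  · rintro ⟨b⟩
    choose a ha ha' hab using fun i => exists_clsF f hf (b i)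
    refine ⟨a, fun i => ⟨ha i, ha' i⟩, fun c hc hc' => ?_⟩
    have key : ∀ t : Fin n → ℝ, ExactForm (c - ∑ i, t i • a i) ↔
        clsF f hf c hc hc' = ∑ i, t i • b i := by
      intro t
      rw [← clsF_eq_zero f hf _ (smoothForm_comb hc ha t)
        (closedForm_comb f hf hc hc' ha ha' t), clsF_comb f hf hc hc' ha ha', sub_eq_zero]
      simp only [hab]
    refine ⟨fun i => b.repr (clsF f hf c hc hc') i, ?_, fun s hs => ?_⟩
    · show ExactForm _
      rw [key]
      exact (b.sum_repr _).symm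
    · funext i
      rw [(key s).1 hs]
      simp [Finsupp.single_apply]

end surface

section compact

variable {X : Type*} [TopologicalSpace X] [ChartedSpace (Cm 2) X] [IsManifold 𝓘(ℝ, Cm 2) ∞ X]
  [CompactSpace X] [T2Space X]

theorem exists_betti1_real : ∃ N, BettiSucc X 0 N := by
  obtain ⟨n, U, f, hf, hU⟩ := exists_goodCov (E := Cm 2) (X := X)
  obtain ⟨r, b, -⟩ := (formPre_good f hf hU).exists_basis1
  exact ⟨r, (bettiSucc_iff f hf 0 r).2 ⟨b⟩⟩

theorem exists_betti2_real : ∃ N, BettiSucc X 1 N := by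
  obtain ⟨n, U, f, hf, hU⟩ := exists_goodCov (E := Cm 2) (X := X)
  obtain ⟨r, b, -⟩ := (formPre_good f hf hU).exists_basis2
  exact ⟨r, (bettiSucc_iff f hf 1 r).2 ⟨b⟩⟩

/-- The Betti numbers are well-defined. -/
theorem bettiSucc_unique_real {k n m : ℕ} (h : BettiSucc X k n) (h' : BettiSucc X k m) :
    n = m := by
  obtain ⟨_, U, f, hf, -⟩ := exists_goodCov (E := Cm 2) (X := X)
  obtain ⟨b⟩ := (bettiSucc_iff f hf k n).1 h
  obtain ⟨b'⟩ := (bettiSucc_iff f hf k m).1 h'
  have h1 := Module.finrank_eq_card_basis b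
  rw [Module.finrank_eq_card_basis b'] at h1
  simpa using h1.symm

end compact

section complex

variable (X : Type*) [TopologicalSpace X] [ChartedSpace (Cm 2) X] [IsManifold 𝓘(ℂ, Cm 2) ω X]
  [CompactSpace X] [T2Space X]

/-- The first Betti number of a compact complex surface exists. -/
theorem exists_betti1 : ∃ N, BettiSucc X 0 N := by
  have := FL.isManifold_real' (X := X) ∞
  exact exists_betti1_real

/-- The second Betti number of a compact complex surface exists. -/
theorem exists_betti2 : ∃ N, BettiSucc X 1 N := by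
  have := FL.isManifold_real' (X := X) ∞
  exact exists_betti2_real

variable {X}

/-- The Betti numbers are well-defined. -/
theorem bettiSucc_unique {k n m : ℕ} (h : BettiSucc X k n) (h' : BettiSucc X k m) : n = m := by
  have := FL.isManifold_real' (X := X) ∞
  exact bettiSucc_unique_real h h'

end complex

end Vale.Agent.P267.H175
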